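import Vale.Agent.P352G.Defs
import Vale.Agent.P352X.EG.W
import Vale.Agent.P352X.R.JC.A2
import Vale.Agent.P352.BW.H118.Prod

/-!
# P352G, row BWG: the modular group of a wedge is the group of boosts
-/

set_option linter.all false

open Filter Topology
open scoped ComplexConjugate

noncomputable section

namespace Vale.Agent.P352G.Bwg

open Vale.Agent.P352 Vale.Agent.P352.GF Vale.Agent.P352.BW Vale.Agent.P352.H246 Vale.Agent.P352.H496
open Vale.Agent.P352.H15 Vale.Agent.P352.H755 Vale.Agent.P352X Vale.Agent.P352X.EG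
open Vale.Agent.P352X.EB (W0 W1)
open Vale.Agent.P132 (ModData)
open UniformSpace (Completion)

variable {D : Type*} [NormedAddCommGroup D] [InnerProductSpace ℂ D] [GrD D]
  {Q : Theory D} {A : (V → V) → D → D} {𝒜 : Set V → VonNeumannAlgebra (Completion D)}

theorem an_bq (a b : V) (t : ℝ) : AN a (T.bq a b t) := fun x hx =>
  ⟨_, by rw [T.bq, sim_bst, hx, mul_zero, zero_smul, add_zero]⟩

theorem sim0 (L : Ix → V) : sim 1 L 0 0 = 0 := by
  funext n
  simp [sim]

theorem ext_coe {X Y : Completion D →L[ℂ] Completion D} (h : ∀ v : D, X v = Y v)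
    (z : Completion D) : X z = Y z :=
  congrFun (Completion.denseRange_coe.equalizer X.continuous Y.continuous (funext h)) z

theorem ug_mul (h : LNmZ Q A 𝒜) (s t : ℝ) (z : Completion D) :
    Ug Q 1 (T.bq va vb s) 0 (Ug Q 1 (T.bq va vb t) 0 z) = Ug Q 1 (T.bq va vb (s + t)) 0 z := by
  have g := sg_row h.cg
  refine ext_coe (X := Ug Q 1 (T.bq va vb s) 0 * Ug Q 1 (T.bq va vb t) 0) (fun v => ?_) z
  have e := h.mul 1 _ 0 1 _ 0 v one_pos one_pos (Bws.lor s) (Bws.lor t)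
    (Or.inr (Or.inr ⟨va, null_va, an_bq _ _ _, an_bq _ _ _⟩))
  have e2 : (fun m => sim 1 (T.bq va vb s) 0 (T.bq va vb t m)) = T.bq va vb (s + t) :=
    T.mat_ext fun x => by rw [← Bws.bq_bq, ← T.sim_cm]; rfl
  rw [e2, sim0, one_mul] at e
  have c1 := g.coe 1 _ 0 v one_pos (Bws.lor t)
  have c2 := g.coe 1 _ 0 (Q.U 1 (T.bq va vb t) 0 v) one_pos (Bws.lor s)
  have c3 := g.coe 1 _ 0 v one_pos (Bws.lor (s + t))
  exact (congrArg _ c1).trans (c2.trans ((congrArg _ e).trans c3.symm))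

theorem in_bq (τ : ℝ) {f : Fn} (hf : In W0 f) : In W0 (T.cp (T.bq va vb (-τ)) f) :=
  T.in_cp (L' := T.bq va vb τ) (Bws.bq_inv (add_neg_cancel τ)) (Bws.bq_inv (neg_add_cancel τ))
    (fun x hx => by
      have := T.H732W.bq_wdg null_va null_vb md_ab τ ⟨_, hx, rfl⟩
      rwa [Bws.bq_inv (add_neg_cancel τ)] at this) hf

/-- one-field vectors of a multiplet -/
theorem one (h : LNmZ Q A 𝒜) (E : ModData (𝒜 W0) (om Q)) {e : Bool} {k : Rp}
    {Φ : Fin k.n → Fld D} (hΦ : IsMf Q k Φ) (hP : ∀ b, Par e (Φ b)) (t : ℝ) (z : Fin k.n → ℂ)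
    {f : Fn} (hf : In W0 f) :
    E.U t (ov h.cg Φ z f) = Ug Q 1 (T.bq va vb t) 0 (ov h.cg Φ z f) := by
  classical
  have g := sg_row h.cg
  obtain ⟨W, σ, hW⟩ := rpx_row.ex k
  choose Φ' h1 h2 using fun a => Q.adj (Φ a) (hΦ.1 a)
  have b := bws_row (e0_thm h.cg) rpx_row (og_row h.cg) (sst_row _) E e k W σ Φ Φ' hW hΦ hP
    fun a => ⟨h1 a, h2 a⟩
  obtain ⟨u, hu⟩ : ∃ u : ℝ → Bool, u = fun τ : ℝ => decide (k.ρ (T.bq va vb τ) ≠ W τ) := ⟨_, rfl⟩
  have hs : ∀ τ : ℝ, k.ρ (T.bq va vb τ) = sg (u τ) • W τ := fun τ => by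
    by_cases h : k.ρ (T.bq va vb τ) = W τ
    · simp [hu, h, sg]
    · rw [show u τ = true by simp [hu, h], (hW.rho τ).resolve_left h]
      simp [sg]
  have k1 : ∀ τ z f, In W0 f → E.U τ (ov h.cg Φ z f) = Bws.Vs h.cg u τ (ov h.cg Φ z f) :=
    fun τ z f hf => by
      rw [Bws.cov g hΦ hW hs τ z hf.1]
      have := b τ z f hf
      rw [Bws.bi_eq] at this
      exact this
  have k2 := k1 (t / 2) ((W (-((t / 2 : ℝ) : ℂ))).mulVec z) _ (in_bq (t / 2) hf)
  rw [← Bws.cov g hΦ hW hs (t / 2) z hf.1] at k2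
  conv_lhs => rw [← add_halves t, E.U_add_apply, k1 _ z f hf, k2]
  rw [Bws.Vs, Bws.Vs, map_smul, smul_smul, Bws.sg_sq, one_smul]
  exact (ug_mul h _ _ _).trans (by rw [add_halves])

/-- one-field vectors -/
theorem one' (h : LNmZ Q A 𝒜) (hG : TfGenZ Q) (E : ModData (𝒜 W0) (om Q)) (t : ℝ) {B : Fld D}
    (hB : Q.fld B) {f : Fn} (hf : In W0 f) :
    E.U t (B f Q.vac : D) = Ug Q 1 (T.bq va vb t) 0 (B f Q.vac : D) := by
  obtain ⟨n, C, h1, h2⟩ := hG B hB
  have e : ((∑ i, C i f Q.vac : D) : Completion D) = ∑ i, ((C i f Q.vac : D) : Completion D) :=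
    map_sum (Completion.toComplL (𝕜 := ℂ) (E := D)) _ Finset.univ
  rw [h2 f _ hf.1, e, map_sum, map_sum]
  refine Finset.sum_congr rfl fun i _ => ?_
  obtain ⟨p, k, Φ, a, hΦ, hP, e'⟩ := h1 i
  have := one h E hΦ hP t (Pi.single a 1) hf
  have e2 : ov h.cg Φ (Pi.single a 1) f = (Φ a f Q.vac : D) := by
    rw [ov, Finset.sum_eq_single a (fun b _ hb => by rw [Pi.single_eq_of_ne hb, zero_smul])
      (fun hh => absurd (Finset.mem_univ a) hh), Pi.single_eq_same, one_smul]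
    rfl
  rwa [e2, ← e'] at this

theorem big0 : Big (MW W0) := by
  have e : W0 = {y : V | 0 < GF.mdot vb y ∧ GF.mdot va y < 0} := by
    ext z
    show (GF.mdot va (z - 0) < 0 ∧ 0 < GF.mdot vb (z - 0)) ↔ _
    rw [sub_zero]
    exact and_comm
  rw [e]
  refine big_two (c := va - vb) one_pos one_pos ?_ ?_
  · rw [md_sub, md_comm, md_ab, null_vb.1, sub_zero]
  · rw [md_sub, md_ab, null_va.1, zero_sub]

/-- the standard wedge -/
theorem bw0 (h : LNmZ Q A 𝒜) (hG : TfGenZ Q) (E : ModData (𝒜 W0) (om Q)) (t : ℝ)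
    (z : Completion D) : E.U t z = Ug Q 1 (T.bq va vb t) 0 z := by
  have g := sg_row h.cg
  have hu := g.uni (Bws.gb h.cg t)
  set W : Completion D →L[ℂ] Completion D := Ug Q 1 (T.bq va vb t) 0 with hW
  have hu' : W ∈ unitary (Completion D →L[ℂ] Completion D) := hu
  have u1 : ∀ z, star W (W z) = z := fun z => DFunLike.congr_fun hu'.1 z
  have u2 : ∀ z, W (star W z) = z := fun z => DFunLike.congr_fun hu'.2 z
  have fix : ∀ z, E.U t z = W z ↔ (star W * E.U t) z = z := fun z =>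
    ⟨fun e => (congrArg (fun w => star W w) e).trans (u1 z), fun e => by
      rw [← u2 (E.U t z)]; exact congrArg W e⟩
  have hcom : ∀ Y ∈ (𝒜 W0).commutant, W * Y * star W ∈ (𝒜 W0).commutant := fun Y hY => by
    rw [VonNeumannAlgebra.mem_commutant_iff] at hY ⊢
    intro X hX
    have h1 : star W * X * W ∈ 𝒜 W0 := (g.alg (Bws.gb h.cg t) W0 _).2 (by
      rw [Bws.img]
      show W * (star W * X * W) * star W ∈ 𝒜 W0
      rw [← mul_assoc, ← mul_assoc, hu'.2, one_mul, mul_assoc, hu'.2, mul_one]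
      exact hX)
    have h2 := hY _ h1
    refine ContinuousLinearMap.ext fun z => ?_
    have h3 := congrArg W (DFunLike.congr_fun h2 (star W z))
    simp only [ContinuousLinearMap.mul_apply, u2] at h3 ⊢
    exact h3
  have hv : (star W * E.U t) (Q.vac : D) = (Q.vac : D) :=
    (fix _).1 ((E.U_xi t).trans (g.vac (Bws.gb h.cg t)).1.symm)
  have key : ∀ v, P352.PW Q (MW W0) v → (star W * E.U t) (v : D) = (v : D) := by
    intro v hv'
    induction hv' with
    | vac => exact hv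
    | add _ _ h1 h2 => rw [Completion.coe_add, map_add, h1, h2]
    | smul c _ h1 => rw [Completion.coe_smul, map_smul, h1]
    | @fld B F v hB hF _ ih =>
      obtain ⟨B', hB', ad⟩ := Q.adj B hB
      have hf : In W0 (fl F) := In_fl.2 hF
      refine prod_fix (𝒜 W0) Q.vac _ (fun z w => ?_) (fun Y hY => ?_) hv E.cyc' (B (fl F))
        (B' (bar (fl F))) (fun v w => ad _ v w hf.1) (h.fld _ _ _ hB hf)
        ((fix _).1 (one' h hG E t hB' (Bws.in_bar hf))) v ih
      · exact (ContinuousLinearMap.inner_map_map_of_mem_unitary (Unitary.star_mem hu') _ _).trans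
          (E.inner_U_U t z w)
      · refine ⟨E.sg (-t) (W * Y * star W), E.sg_mem_commutant (hcom Y hY) (-t), fun z => ?_⟩
        simp only [ContinuousLinearMap.mul_apply, E.sg_apply, neg_neg, E.U_apply_neg, u1]
  have d := dense_PC (Q := Q) big0
  refine congrFun ((E.U t).continuous.ext_on d W.continuous ?_) z
  rintro _ ⟨v, hv, rfl⟩
  exact (fix _).2 (key v hv)

end Vale.Agent.P352G.Bwg

namespace Vale.Agent.P352G

open Vale.Agent.P352 Vale.Agent.P352.GF Vale.Agent.P352.BW Vale.Agent.P352.H246 Vale.Agent.P352.H496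
open Vale.Agent.P352.H15 Vale.Agent.P352.H755 Vale.Agent.P352X Vale.Agent.P352X.EG
open Vale.Agent.P352X.EB (W0 W1)
open UniformSpace (Completion)

open Bwg in
/-- **row BWG** -/
theorem bwg (D : Type*) [NormedAddCommGroup D] [InnerProductSpace ℂ D] [GrD D] : BWG D := by
  intro Q A 𝒜 h hG a b t L E z ha hb hab hL hx
  have g := sg_row h.cg
  obtain ⟨E0⟩ := g.md
  obtain ⟨Λ, p, q, h1, h2, h3, h4, h5⟩ := JCa.rl ha hb (hab ▸ one_pos)
  have im := JCa.wdg_img h1 h2 h3 h4 h5 0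
  let γ : Sh h.cg := ⟨⟨1, Λ, 0, one_pos, h1⟩, false⟩
  have hu := g.uni γ
  set W : Completion D →L[ℂ] Completion D := Ug Q 1 Λ 0 with hW
  have hu' : W ∈ unitary (Completion D →L[ℂ] Completion D) := hu
  have u1 : ∀ z, star W (W z) = z := fun z => DFunLike.congr_fun hu'.1 z
  have u2 : ∀ z, W (star W z) = z := fun z => DFunLike.congr_fun hu'.2 z
  have al : ∀ X, X ∈ 𝒜 W0 ↔ W * X * star W ∈ 𝒜 (Wdg a b 0) := fun X => by
    rw [← im]
    exact g.alg γ W0 X
  have n := eblock _ _ _ E0 E (Unitary.linearIsometryEquiv ⟨W, hu'⟩) (g.vac γ).1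
    (fun X hX => ⟨_, (al X).1 hX, fun z => congrArg (fun w => W (X w)) (u1 z)⟩)
    (fun Y hY => ⟨star W * Y * W, (al _).2 (by
      rw [← mul_assoc, ← mul_assoc, hu'.2, one_mul, mul_assoc, hu'.2, mul_one]; exact hY),
      fun z => (u2 _).symm⟩) t (star W z)
  have pq : p * q = 1 := by
    have := mdot_sim h1 va vb
    rw [h4, h5, md_smul, md_smul_l, hab, md_ab] at this
    linarith
  have cjx : ∀ x, sim 1 L 0 (sim 1 Λ 0 x) = sim 1 Λ 0 (sim 1 (T.bq va vb t) 0 x) := fun x => by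
    have e1 := mdot_sim h1 va x
    have e2 := mdot_sim h1 vb x
    rw [h4, md_smul_l] at e1
    rw [h5, md_smul_l] at e2
    rw [hx, T.bq, sim_bst, simL_add, simL_add, simL_smul, simL_smul, h4, h5, ← e1, ← e2,
      smul_smul, smul_smul]
    congr 2
    · congr 1
      linear_combination (-(Real.exp (-(2 * Real.pi * t)) - 1) * GF.mdot b (sim 1 Λ 0 x)) * pq
    · linear_combination (-(Real.exp (2 * Real.pi * t) - 1) * GF.mdot a (sim 1 Λ 0 x)) * pq
  have cj : ∀ z, (W * Ug Q 1 (T.bq va vb t) 0) z = (Ug Q 1 L 0 * W) z := ext_coe fun v => by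
    have e := h.cj 1 Λ 0 _ L va v one_pos h1 (Bws.lor t) hL null_va (an_bq _ _ _) cjx
    rw [sim0, sub_zero] at e
    have c1 := g.coe 1 _ 0 v one_pos (Bws.lor t)
    have c2 := g.coe 1 _ 0 (Q.U 1 (T.bq va vb t) 0 v) one_pos h1
    have c3 := g.coe 1 _ 0 v one_pos h1
    have c4 := g.coe 1 _ 0 (Q.U 1 Λ 0 v) one_pos hL
    exact (congrArg W c1).trans (c2.trans ((congrArg _ e).trans
      (c4.symm.trans (congrArg _ c3.symm))))
  have n' : W (E0.U t (star W z)) = E.U t (W (star W z)) := n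
  rw [u2, show E0.U t (star W z) = _ from bw0 h hG E0 t _] at n'
  rw [← n', ← Ug_apply Q one_pos hL]
  exact (cj _).trans (congrArg _ (u2 z))

end Vale.Agent.P352G

end
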