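import Vale.Agent.P352G75.Defs
import Vale.Agent.P352X.EH.LET

/-!
# P352G, graded net-only route, row COV
-/

set_option linter.all false

open Filter Topology
open scoped ComplexConjugate

namespace Vale.Agent.P352X.EG.NG

open Vale.Agent.P352 Vale.Agent.P352.GF Vale.Agent.P352.BW Vale.Agent.P352.H246
open Vale.Agent.P352.H496 Vale.Agent.P352.H755 Vale.Agent.P352.H15
open Vale.Agent.P352.SubConf (IsAdj)
open Vale.Agent.P352X.EB
open UniformSpace (Completion)

noncomputable section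

variable {D : Type*} [NormedAddCommGroup D] [InnerProductSpace ℂ D] {c : Cg D}

open H H.Le in
/-- covariance of a component, with the labels chosen before the group element -/
theorem cov_cmp (hF : FSL c.Q) (hD : H.MdAll c) {e : Bool} {B : Fld D} (h : H.Cmp c e B) :
    ∃ (m : ℕ) (ι : Type) (_ : Fintype ι) (κ : Sg → ι → ℂ) (q : ι → H.Lb c),
      (∀ g : Sg, 1 ≤ g.s → g.L = GF.one → ∀ i, ‖κ g i‖ ≤ g.s ^ m) ∧
      ∀ g : Sg, Rel g.s g.L g.a B (κ g) q := by
  obtain ⟨k, Φ, μ, h, rfl⟩ := h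
  choose m ι _ q κ hκ hq using fun ν => scl hF hD (h.mf.1 ν)
  refine ⟨Finset.univ.sup m, Σ ν, ι ν, inferInstance,
    fun g i => k.ρ g.L i.1 μ * κ i.1 g.s i.2, fun i => q i.1 i.2, fun g hs hL i => ?_,
    fun g f v hf => ?_⟩
  · refine (norm_mul_le _ _).trans ((mul_le_of_le_one_left (norm_nonneg _) ?_).trans
      ((hκ _ _ hs _).trans (pow_le_pow_right₀ hs (Finset.le_sup (Finset.mem_univ i.1)))))
    rw [hL, k.id, Matrix.one_apply]
    split_ifs <;> simp
  have o := H496.isLor_one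
  have R := Fsg.m1 c
  have e : ∀ v, c.Q.U g.s g.L g.a v = ul c ⟨1, _, g.a, one_pos, o⟩ (ul c ⟨1, g.L, 0, one_pos, g.hL⟩
      (c.Q.U g.s GF.one 0 v)) := fun v => by
    refine (Fss.G.U_dil R g.hs g.hL g.a v).2.symm.trans (Eq.trans ?_
      (R 1 _ g.a 1 g.L 0 _ one_pos one_pos o g.hL (.inl rfl)).symm)
    simp only [Fss.sim_dil, zero_add, one_smul, smul_zero, add_zero, mul_one]
    rfl
  have f1 := Ap.test_sim one_pos o g.a hf
  have f2 := Ap.test_sim one_pos g.hL 0 f1
  simp only [e]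
  refine (c.Q.transl _ g.a f _ (h.mf.1 μ) hf).trans ?_
  refine (congrArg _ (h.mf.2 μ g.L _ _ g.hL f1)).trans ?_
  rw [Fintype.sum_sigma]
  refine (map_sum (ul c ⟨1, _, g.a, one_pos, o⟩) _ _).trans (Finset.sum_congr rfl fun ν _ => ?_)
  rw [hq ν g.s g.hs _ v f2, map_smul]
  show _ • ul c _ (ul c ⟨1, g.L, 0, one_pos, g.hL⟩ _) = _
  simp only [map_sum, map_smul, Finset.smul_sum, smul_smul]
  refine Finset.sum_congr rfl fun i _ => ?_
  congr 5
  funext x
  rw [N86.c1_sim g.s g.L g.a, Fss.sim_dil, Fss.sim_dil, one_smul, zero_add]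
  congr 2
  funext n
  simp [sim, Finset.mul_sum, mul_assoc]

open H H.Le in
theorem cov_row (t : E0 c) (hM : MfAll c.Q) (hF : FSL c.Q) : COV c := by
  intro B B' hB hB' hA
  have hD : H.MdAll c := H.md t hM
  obtain ⟨n, p, hp⟩ := hD B hB
  choose m ι _ κ q h1 h2 using fun i => cov_cmp hF hD (p i).h
  have key : ∀ g : Sg, Rel g.s g.L g.a B (fun j : Σ i, ι i => κ j.1 g j.2) fun j => q j.1 j.2 :=
    fun g f v hf => by
      rw [hp f _ hf, Fintype.sum_sigma]
      exact Finset.sum_congr rfl fun i _ => h2 i g f v hf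
  let E := (Fintype.equivFin (Σ i, ι i)).symm
  have sc : ∀ e, conj (sg e) = sg e := fun e => by cases e <;> simp [sg]
  refine ⟨Finset.univ.sup m, _, fun i => q (E i).1 (E i).2,
    fun g i => κ (E i).1 g.toSg (E i).2 * sg (g.e && (q (E i).1 (E i).2).e), fun g hs hL i => ?_,
    fun g f h0 => ⟨(vac t g.toSg ((key g.toSg).fin f _ h0)).trans ?_,
      (vac t g.toSg (t.bas.sadj _ _ _ _ _ _ B' _ (fun i => (q (E i).1 (E i).2).B') g.hs g.hL hA
        (fun i => (q _ _).a) (key g.toSg).fin f _ h0)).trans ?_⟩⟩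
  · refine (norm_mul_le _ _).trans ((mul_le_of_le_one_right (norm_nonneg _) ?_).trans
      ((h1 _ _ hs hL _).trans (pow_le_pow_right₀ hs (Finset.le_sup (Finset.mem_univ (E i).1)))))
    cases (g.e && (q (E i).1 (E i).2).e) <;> simp [sg]
  · exact Finset.sum_congr rfl fun i _ => by
      rw [Let.tw t.sg g (t.bas.pvac _ _ _ (par (q _ _).h) (t.sg.test g f h0)), smul_smul]
  · refine Finset.sum_congr rfl fun i _ => ?_
    rw [Let.tw t.sg g (t.bas.pvac _ _ _ (par (q _ _).h') (t.sg.test g f h0)), smul_smul, map_mul, sc]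

end

end Vale.Agent.P352X.EG.NG
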